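import Vale.Agent.P113.Dep

open Set Function

namespace Vale.Agent.Results.P113.HaltingFlow

/-! ### Vectors, rational points, computable reals -/

/-- `ℝ³`. Functions on the flat torus are the `ℤ³`-periodic functions on `ℝ³`. -/
abbrev Vec := Fin 3 → ℝ

/-- The standard basis vectors of `ℝ³`. -/
def unitVec (j : Fin 3) : Vec := Pi.single j 1

/-- The projection `ℝ³ → 𝕋³ = (ℝ/ℤ)³`. -/
def toTorus (x : Vec) : Fin 3 → UnitAddCircle := fun i => ((x i : ℝ) : UnitAddCircle)

/-- The triple `(a, b, c)` names the rational number `(a - b) / (c + 1)`. -/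
noncomputable def rat (r : ℕ × ℕ × ℕ) : ℝ := ((r.1 : ℝ) - (r.2.1 : ℝ)) / ((r.2.2 : ℝ) + 1)

/-- Computable reals: rational approximations to any accuracy are produced by an algorithm. -/
def ComputableReal (ν : ℝ) : Prop :=
  ∃ g : ℕ → ℕ × ℕ × ℕ, Computable g ∧ ∀ n, |ν - rat (g n)| ≤ 1 / ((n : ℝ) + 1)

/-! ### Turing machines -/

/-- Head moves. -/
inductive Move
  | left
  | right
  | stay

/-- The displacement of the head. -/
def Move.shift : Move → ℤ
  | left => -1
  | right => 1
  | stay => 0

/-- Numerical name of a move. -/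
def Move.num : Move → ℕ
  | left => 0
  | right => 1
  | stay => 2

/-- A deterministic one-tape machine: its states are `0, …, states` (start state `0`), its symbols
are `0, …, symbols` (blank `0`), some states are halting, and `next q s` gives the new state, the
symbol written and the move of the head. -/
structure Machine where
  states : ℕ
  symbols : ℕ
  halting : Fin (states + 1) → Bool
  next : Fin (states + 1) → Fin (symbols + 1) → Fin (states + 1) × Fin (symbols + 1) × Move

/-- A configuration: state, head position, content of the two-sided tape. -/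
structure Config (M : Machine) where
  state : Fin (M.states + 1)
  head : ℤ
  tape : ℤ → Fin (M.symbols + 1)

/-- One step of the machine. -/
def step (M : Machine) (c : Config M) : Config M :=
  ⟨(M.next c.state (c.tape c.head)).1,
    c.head + (M.next c.state (c.tape c.head)).2.2.shift,
    Function.update c.tape c.head (M.next c.state (c.tape c.head)).2.1⟩

/-- The initial configuration: the word `w` on an otherwise blank tape, head on its first cell. -/
def start (M : Machine) (w : List (Fin (M.symbols + 1))) : Config M :=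
  ⟨0, 0, fun i => if 0 ≤ i then w.getD i.toNat 0 else 0⟩

/-- `M` halts on `w`: a halting state is reached after finitely many steps, possibly none. -/
def Halts (M : Machine) (w : List (Fin (M.symbols + 1))) : Prop :=
  ∃ n : ℕ, M.halting ((step M)^[n] (start M w)).state = true

/-- Finite descriptions of machines: number of states and symbols, list of halting flags, table. -/
abbrev Description := ℕ × ℕ × List Bool × List (List (ℕ × ℕ × ℕ))

/-- The description of a machine. -/
def describe (M : Machine) : Description :=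
  (M.states, M.symbols, List.ofFn M.halting,
    List.ofFn fun q => List.ofFn fun s =>
      (((M.next q s).1 : ℕ), ((M.next q s).2.1 : ℕ), (M.next q s).2.2.num))

/-! ### Forces and programs -/

/-- Time-dependent vector fields on `ℝ³`. -/
abbrev Field := ℝ → Vec → Vec

/-- Time-dependent scalar functions on `ℝ³`. -/
abbrev Scalar := ℝ → Vec → ℝ

/-- The vector in `ℝ³` with the given integer coordinates. -/
def intVec (k : Fin 3 → ℤ) : Vec := fun i => (k i : ℝ)

/-- Partial derivative in the variable `j` of a function of `(t, x₀, x₁, x₂)`. -/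
noncomputable def pderiv (j : Fin 4) (F : (Fin 4 → ℝ) → ℝ) (v : Fin 4 → ℝ) : ℝ :=
  deriv (fun s => F (Function.update v j s)) (v j)

/-- The mixed derivative along a list of variables. -/
noncomputable def mixedDeriv (l : List (Fin 4)) (F : (Fin 4 → ℝ) → ℝ) : (Fin 4 → ℝ) → ℝ :=
  l.foldr pderiv F

/-- The `k`-th component of a field as a function of `(t, x₀, x₁, x₂)`. -/
def component (f : Field) (k : Fin 3) (v : Fin 4 → ℝ) : ℝ := f (v 0) (fun j => v j.succ) k

/-- A question about derivatives: a list of variables, a component, a rational time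
`a / (b + 1) ≥ 0` given by `(a, b)`, and a rational point given by three names of rationals. -/
abbrev Query := List (Fin 4) × Fin 3 × (ℕ × ℕ) × ((ℕ × ℕ × ℕ) × (ℕ × ℕ × ℕ) × (ℕ × ℕ × ℕ))

/-- The rational point `(t, x₀, x₁, x₂)` of a query. -/
noncomputable def Query.point (q : Query) : Fin 4 → ℝ :=
  ![(q.2.2.1.1 : ℝ) / ((q.2.2.1.2 : ℝ) + 1), rat q.2.2.2.1, rat q.2.2.2.2.1, rat q.2.2.2.2.2]

/-- The program `e` computes all mixed derivatives of `f` at rational points: given a query and `n`,
it halts with a rational at distance at most `1 / (n + 1)` from the derivative asked for. -/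
def Computes (e : Nat.Partrec.Code) (f : Field) : Prop :=
  ∀ (q : Query) (n : ℕ), ∃ r : ℕ × ℕ × ℕ,
    e.eval (Encodable.encode (q, n)) = Part.some (Encodable.encode r) ∧
      |mixedDeriv q.1 (component f q.2.1) q.point - rat r| ≤ 1 / ((n : ℝ) + 1)

/-- Smooth forces on `ℝ × 𝕋³` (in particular on `[0, ∞) × 𝕋³`). -/
def SmoothForce (f : Field) : Prop :=
  ContDiff ℝ (⊤ : ℕ∞) (uncurry f) ∧ ∀ (t : ℝ) (x : Vec) (k : Fin 3 → ℤ), f t (x + intVec k) = f t x

/-- A family of fields indexed by the machines and their inputs. -/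
abbrev Family := (M : Machine) → List (Fin (M.symbols + 1)) → Field

/-- The finite data `(M, w)` given to the compiler. -/
def data (M : Machine) (w : List (Fin (M.symbols + 1))) : Description × List ℕ :=
  (describe M, w.map Fin.val)

/-- Force compilers: an algorithm `compile` which, on every `(M, w)`, outputs a program computing all
mixed derivatives of the smooth force `f M w`; for `t ≥ T₀` the force has period `P` in time and
depends on `M` only. -/
def ForceCompiler (T₀ P : ℝ) (f : Family) (compile : Description × List ℕ → Nat.Partrec.Code) : Prop :=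
  0 < P ∧ Computable compile ∧
    (∀ M w, SmoothForce (f M w) ∧ Computes (compile (data M w)) (f M w)) ∧
    (∀ M w t, T₀ ≤ t → f M w (t + P) = f M w t) ∧
    (∀ M w w' t, T₀ ≤ t → f M w t = f M w' t)

/-- The input `w` enters the force only through one rational number `ρ`, computed exactly, which
multiplies a fixed pulse `χ` that depends neither on `(M, w)` nor on the point of the torus. -/
def RationalInput (f : Family) : Prop :=
  ∃ (ρ : Description × List ℕ → ℕ × ℕ × ℕ) (χ : ℝ → Vec) (g : Machine → Field), Computable ρ ∧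
    ∀ M w t x, f M w t x = rat (ρ (data M w)) • χ t + g M t x

/-! ### The Navier-Stokes equations -/

/-- First derivatives in space of a vector field. -/
abbrev Field1 := ℝ → Vec → Vec →L[ℝ] Vec

/-- Second derivatives in space of a vector field. -/
abbrev Field2 := ℝ → Vec → Vec →L[ℝ] Vec →L[ℝ] Vec

/-- Derivatives in space of a scalar function. -/
abbrev Scalar1 := ℝ → Vec → Vec →L[ℝ] ℝ

/-- On the time set `I`, `ut` is the time derivative of `u`, `Du` and `D2u` are its first and second
spatial derivatives, and these and `u` are continuous. -/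
def VelocityOn (I : Set ℝ) (u ut : Field) (Du : Field1) (D2u : Field2) : Prop :=
  (∀ t ∈ I, ∀ x, HasDerivWithinAt (fun s => u s x) (ut t x) I t) ∧
  (∀ t ∈ I, ∀ x, HasFDerivAt (u t) (Du t x) x) ∧
  (∀ t ∈ I, ∀ x, HasFDerivAt (Du t) (D2u t x) x) ∧
  ContinuousOn (uncurry u) (I ×ˢ univ) ∧ ContinuousOn (uncurry ut) (I ×ˢ univ) ∧
  ContinuousOn (uncurry Du) (I ×ˢ univ) ∧ ContinuousOn (uncurry D2u) (I ×ˢ univ)

/-- On the time set `I`, `Dp` is the spatial derivative of `p`, both are continuous, and `p` has
spatial mean zero. -/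
def PressureOn (I : Set ℝ) (p : Scalar) (Dp : Scalar1) : Prop :=
  (∀ t ∈ I, ∀ x, HasFDerivAt (p t) (Dp t x) x) ∧
  ContinuousOn (uncurry p) (I ×ˢ univ) ∧ ContinuousOn (uncurry Dp) (I ×ˢ univ) ∧
  ∀ t ∈ I, ∫ x in Icc (0 : Vec) 1, p t x = 0

/-- `u` and `p` are functions on the torus. -/
def PeriodicOn (I : Set ℝ) (u : Field) (p : Scalar) : Prop :=
  ∀ t ∈ I, ∀ (x : Vec) (k : Fin 3 → ℤ), u t (x + intVec k) = u t x ∧ p t (x + intVec k) = p t x

/-- The momentum equation `∂ₜu + (u · ∇)u = -∇p + ν Δu + f`, in coordinates. -/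
def Momentum (ν : ℝ) (f : Field) (I : Set ℝ) (u ut : Field) (Du : Field1) (D2u : Field2)
    (Dp : Scalar1) : Prop :=
  ∀ t ∈ I, ∀ (x : Vec) (i : Fin 3), ut t x i + ∑ j, u t x j * Du t x (unitVec j) i =
    - Dp t x (unitVec i) + ν * ∑ j, D2u t x (unitVec j) (unitVec j) i + f t x i

/-- Incompressibility `div u = 0`. -/
def DivFree (I : Set ℝ) (Du : Field1) : Prop := ∀ t ∈ I, ∀ x : Vec, ∑ j, Du t x (unitVec j) j = 0

/-- `(u, p)` is a classical solution on the time set `I` (an interval `[0, T]`, or `[0, ∞)`) of the
Navier-Stokes equations on the flat torus, with viscosity `ν`, force `f` and zero initial velocity. -/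
def Classical (ν : ℝ) (f : Field) (I : Set ℝ) (u : Field) (p : Scalar) : Prop :=
  ∃ (ut : Field) (Du : Field1) (D2u : Field2) (Dp : Scalar1),
    VelocityOn I u ut Du D2u ∧ PressureOn I p Dp ∧ PeriodicOn I u p ∧
    Momentum ν f I u ut Du D2u Dp ∧ DivFree I Du ∧ ∀ x : Vec, u 0 x = 0

/-- `(u, p)` is a smooth solution on `[0, ∞)` and it is the only classical solution on each
interval `[0, T]`. -/
def GlobalSolution (ν : ℝ) (f : Field) (u : Field) (p : Scalar) : Prop :=
  ContDiff ℝ (⊤ : ℕ∞) (uncurry u) ∧ ContDiff ℝ (⊤ : ℕ∞) (uncurry p) ∧ Classical ν f (Ici 0) u p ∧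
    ∀ T, 0 < T → Classical ν f (Icc 0 T) u p ∧
      ∀ v q, Classical ν f (Icc 0 T) v q → ∀ t ∈ Icc 0 T, v t = u t ∧ q t = p t

/-- `X` is (a lift to `ℝ³` of) the trajectory of `a` under the velocity field `u`. -/
def Trajectory (u : Field) (a : Vec) (X : ℝ → Vec) : Prop :=
  X 0 = a ∧ ∀ t, 0 ≤ t → HasDerivWithinAt X (u t (X t)) (Ici 0) t

/-- The trajectory of `a` exists, and it meets `O` at some real time `t ≥ 0` iff `A` holds. -/
def DetectedBy (u : Field) (a : Vec) (O : Set (Fin 3 → UnitAddCircle)) (A : Prop) : Prop :=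
  (∃ X, Trajectory u a X) ∧ ∀ X, Trajectory u a X → ((∃ t, 0 ≤ t ∧ toTorus (X t) ∈ O) ↔ A)

/-! ### Proof -/

theorem tab_in (M : Machine) (l : List ℕ) (q : Fin (M.states + 1)) (s : Fin (M.symbols + 1)) :
    P113.tab (describe M, l) q s =
      (((M.next q s).1 : ℕ), ((M.next q s).2.1 : ℕ), (M.next q s).2.2.num) := by
  unfold P113.tab describe
  have hq := q.isLt
  have hs := s.isLt
  simp only [List.getD_eq_getElem?_getD, List.getElem?_ofFn, hq, dite_true, Option.getD_some, hs]

theorem hlt_in (M : Machine) (l : List ℕ) (q : Fin (M.states + 1)) :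
    P113.hlt (describe M, l) q = M.halting q := by
  unfold P113.hlt describe
  have hq := q.isLt
  simp only [List.getD_eq_getElem?_getD, List.getElem?_ofFn, hq, dite_true, Option.getD_some]

theorem wf_in (M : Machine) (l : List ℕ) : P113.WF (describe M, l) := by
  intro q s
  have hK : P113.Kc (describe M, l) = M.states + M.symbols + 2 := rfl
  by_cases hq : q < M.states + 1
  · by_cases hs : s < M.symbols + 1
    · have h := tab_in M l ⟨q, hq⟩ ⟨s, hs⟩
      simp only at h
      rw [h, hK]
      have h1 := (M.next ⟨q, hq⟩ ⟨s, hs⟩).1.isLt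
      have h2 := (M.next ⟨q, hq⟩ ⟨s, hs⟩).2.1.isLt
      constructor
      · simp only; omega
      · simp only; omega
    · have h : P113.tab (describe M, l) q s = (0, 0, 1) := by
        unfold P113.tab describe
        simp only [List.getD_eq_getElem?_getD, List.getElem?_ofFn, hq, dite_true, Option.getD_some, hs, dite_false,
          Option.getD_none]
      rw [h, hK]
      constructor
      · simp only; omega
      · simp only; omega
  · have h : P113.tab (describe M, l) q s = (0, 0, 1) := by
      unfold P113.tab describe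
      simp only [List.getD_eq_getElem?_getD, List.getElem?_ofFn, hq, dite_false,
          Option.getD_none, List.getElem?_nil]
    rw [h, hK]
    constructor
    · simp only; omega
    · simp only; omega

theorem ok_in (M : Machine) (w : List (Fin (M.symbols + 1))) : P113.Ok (describe M, w.map Fin.val) where
  wf := wf_in M _
  hw := by
    intro a ha
    obtain ⟨b, _, rfl⟩ := List.mem_map.1 ha
    have hK : P113.Kc (describe M, w.map Fin.val) = M.states + M.symbols + 2 := rfl
    have := b.isLt
    rw [hK]; omega

def toRC (M : Machine) (c : Config M) : P113.RC := ⟨c.state, c.head, fun i => (c.tape i : ℕ)⟩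

theorem mvz_num (m : Move) : P113.mvz m.num = m.shift := by
  cases m <;> rfl

theorem step_rc (M : Machine) (l : List ℕ) (c : Config M) :
    toRC M (step M c) = P113.rst (describe M, l) (toRC M c) := by
  have h := tab_in M l c.state (c.tape c.head)
  unfold P113.rst toRC step
  simp only [h, mvz_num]
  congr 1
  funext i
  by_cases hi : i = c.head
  · subst hi; simp
  · simp [Function.update_of_ne hi]

theorem start_rc (M : Machine) (w : List (Fin (M.symbols + 1))) :
    toRC M (start M w) = P113.rin (describe M, w.map Fin.val) := by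
  unfold P113.rin toRC start
  simp only [Fin.val_zero]
  congr 1
  funext i
  split_ifs with hi
  · rw [show (0:ℕ) = Fin.val (0 : Fin (M.symbols + 1)) from rfl, List.getD_map]
  · rfl

theorem halts_in (M : Machine) (w : List (Fin (M.symbols + 1))) :
    Halts M w ↔ ∃ k, P113.hlt (describe M, w.map Fin.val)
      ((P113.rst (describe M, w.map Fin.val))^[k] (P113.rin (describe M, w.map Fin.val))).q = true := by
  have h : ∀ k, toRC M ((step M)^[k] (start M w)) =
      (P113.rst (describe M, w.map Fin.val))^[k] (P113.rin (describe M, w.map Fin.val)) := by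
    intro k
    induction k with
    | zero => exact start_rc M w
    | succ k ih => rw [Function.iterate_succ_apply', Function.iterate_succ_apply', ← ih, step_rc]
  unfold Halts
  apply exists_congr
  intro k
  rw [← h k]
  unfold toRC
  simp only
  rw [hlt_in]

theorem classical_of {ν : ℝ} {f : Field} {I : Set ℝ} {u : Field} {p : Scalar}
    {ut : Field} {Du : Field1} {D2u : Field2} {Dp : Scalar1} (h : P113.CD ν f I u p ut Du D2u Dp) :
    Classical ν f I u p :=
  ⟨ut, Du, D2u, Dp, ⟨h.dt, h.dx, h.dxx, h.cu, h.cut, h.cDu, h.cD2u⟩, ⟨h.dp, h.cp, h.cDp, h.mean⟩, h.per,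
    h.eqn, h.div, h.init⟩

theorem of_classical {ν : ℝ} {f : Field} {I : Set ℝ} {u : Field} {p : Scalar}
    (h : Classical ν f I u p) : ∃ (ut : Field) (Du : Field1) (D2u : Field2) (Dp : Scalar1),
      P113.CD ν f I u p ut Du D2u Dp := by
  obtain ⟨ut, Du, D2u, Dp, ⟨h1, h2, h3, h4, h5, h6, h7⟩, ⟨g1, g2, g3, g4⟩, hp, he, hv, h0⟩ := h
  exact ⟨ut, Du, D2u, Dp, h4, h5, h6, h7, g2, g3, h1, h2, h3, g1, hp, he, hv, h0, g4⟩

/-- For every computable viscosity there are a point `a`, an open set `O` and a force compiler such
that the trajectory of `a` in the (unique, smooth, global) flow from rest driven by the compiled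
force of `(M, w)` meets `O` exactly when `M` halts on `w`. -/
theorem result (ν : ℝ) (hν : 0 < ν) (hc : ComputableReal ν) :
    ∃ (a : Vec) (O : Set (Fin 3 → UnitAddCircle)) (T₀ P : ℝ) (f : Family)
      (compile : Description × List ℕ → Nat.Partrec.Code),
      IsOpen O ∧ ForceCompiler T₀ P f compile ∧ RationalInput f ∧
      ∀ M w, ∃ (u : Field) (p : Scalar), GlobalSolution ν (f M w) u p ∧ DetectedBy u a O (Halts M w) := by
  obtain ⟨comp, hcomp, hprog⟩ := P113.programs (ν := ν) hc
  refine ⟨0, P113.Oset, 1, 11, fun M w => (P113.sysOf (data M w)).force ν, comp, P113.Oset_open,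
    ⟨by norm_num, hcomp, ?_, ?_, ?_⟩, ⟨P113.y0, fun t k => if k = 1 then P113.PT 11 1 t else 0,
      fun M => P113.Fg ν (describe M), P113.pr_y0.to_comp, ?_⟩, ?_⟩
  · exact fun M w => ⟨⟨P113.force_smooth ν _, P113.force_perx ν _⟩, fun q n => hprog (data M w) q n⟩
  · intro M w t ht
    funext x
    beta_reduce
    rw [P113.force_late ν _ (by linarith), P113.force_late ν _ ht, P113.Fg_per ν _ ht]
  · intro M w w' t ht
    funext x
    beta_reduce
    rw [P113.force_late ν _ ht, P113.force_late ν _ ht]
    rfl
  · intro M w t x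
    exact P113.force_split ν _ t x
  · intro M w
    set c : P113.Inp := data M w with hcD
    have hcl : ∀ I, P113.CD ν ((P113.sysOf c).force ν) I ((P113.sysOf c).U 0 0 0 0) (fun _ _ => 0)
        ((P113.sysOf c).U 1 0 0 0) ((P113.sysOf c).D 0 0 0 0) (P113.sysOf c).D2 (fun _ _ => 0) := fun I =>
      (P113.sysOf c).classical ν I (P113.U_zero_time c)
    refine ⟨(P113.sysOf c).U 0 0 0 0, fun _ _ => 0, ⟨(P113.sysOf c).smooth 0 0 0 0, contDiff_const,
      classical_of (hcl _), fun T hT => ⟨classical_of (hcl _), ?_⟩⟩, P113.traj_exists (P113.shears_of c) 0, ?_⟩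
    · intro v q hv t ht
      obtain ⟨vt, Dv, D2v, Dq, h2⟩ := of_classical hv
      have h := P113.unique_classical hν.le hT (hcl _) h2 t ht
      exact ⟨funext fun x => (h x).1, funext fun x => (h x).2⟩
    · intro X hX
      rw [halts_in M w]
      exact P113.traj_iff c (ok_in M w) hX.1 hX.2

end Vale.Agent.Results.P113.HaltingFlow
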